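import Vale.Agent.P287D.Defs

/-!
# P283M: the statement on the b-divisor tier

`K` is the function field of `X`, the finite set `u` generates the coordinate ring of an affine
neighbourhood `V` of `z` in `Z` and vanishes at `z`; `X` over `V` is the part of `V Λ` over `V`.
-/

open Set

noncomputable section

namespace Vale.Agent.P283M

open Vale.Agent.P287D

section

variable {K : Type} [Field K] [Algebra ℂ K]

/-- the place lies over `V` -/
def Ov (u : Finset K) (P : Pl K) : Prop := ∀ a ∈ u, a ∈ P.ring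

open Classical in
/-- the hyperplane at infinity of the base: it vanishes exactly at the places over `V` -/
def inf (u : Finset K) : BD K := mx (insert 1 u)

/-- semiample over `V` -/
def SmpO (u : Finset K) (β : BD K) : Prop := ∃ γ, Smp γ ∧ ∀ P, Ov u P → β P = γ P

/-- the function on `V` given by a polynomial in the coordinates -/
def ev (u : Finset K) (p : MvPolynomial u ℂ) : K := MvPolynomial.aeval (fun a : u => (a : K)) p

end

open Classical in
/-- nef over `V` (`K` of dimension `n + 1`): the degree is nonnegative at the end of every chain of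
places over `V` which ends in a curve on which the coordinates of `V` are constant -/
def NefO : ∀ (_ : ℕ) (K : Type) [Field K] [Algebra ℂ K], Finset K → BD K → Prop
  | 0, K, _, _, u, β => (∀ a ∈ u, a ∈ range (algebraMap ℂ K)) → 0 ≤ I1 β
  | n + 1, K, _, _, u, β => ∀ P : Pl K, Ov u P → NefO n P.κ (u.image P.rd) (res P β)

variable {K : Type} [Field K] [Algebra ℂ K]

/-- `X = V Λ` over `V` is a contraction of Fano type (`Γ'` is the pull back of `K + C`), and `Γ`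
(the pull back of `K + B`) is `ℚ`-Cartier on `X`; `K` has the dimension `n + 1` -/
structure Dat (n : ℕ) (u : Finset K) (Λ Γ Γ' : BD K) : Prop where
  ff : FF K (n + 1)
  smp : Smp Λ
  big : Big Λ
  base : Dsc Λ (inf u)
  con : ∀ a : K, (∀ P, Ov u P → a ∈ P.ring) → a ∈ Algebra.adjoin ℂ (u : Set K)
  car : CarQ Γ
  dn : Dsc Λ Γ
  car' : CarQ Γ'
  dn' : Dsc Λ Γ'
  amp : ∃ ε : ℝ, 0 < ε ∧ SmpO u (-Γ' - ε • Λ)
  klt : ∀ P, Ov u P → -1 < dsc (n + 1) Γ' P
  bdy : ∀ P, Ov u P → On n Λ P → dsc (n + 1) Γ' P ≤ 0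

/-- the pair `(X, B)` is `ε`-lc over `V` and the coefficients of `B` lie in `R` -/
structure Elc (n : ℕ) (ε : ℝ) (R : Finset ℚ) (u : Finset K) (Λ Γ : BD K) : Prop where
  lc : ∀ P, Ov u P → ε ≤ 1 + dsc (n + 1) Γ P
  cf : ∀ P, Ov u P → On n Λ P → dsc (n + 1) Γ P = 0 ∨ ∃ r ∈ R, dsc (n + 1) Γ P = -(r : ℝ)

/-- a klt `N`-complement over the neighbourhood `{p ≠ 0}` of the origin of `V` -/
def Cpl (n N : ℕ) (u : Finset K) (Λ Γ : BD K) : Prop :=
  ∃ (φ : K) (p : MvPolynomial u ℂ), φ ≠ 0 ∧ MvPolynomial.constantCoeff p ≠ 0 ∧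
    ∀ P, Ov u P → P.rd (ev u p) ≠ 0 →
      (On n Λ P → Γ P ≤ (N : ℝ)⁻¹ * dv φ P) ∧ -1 < dsc (n + 1) ((N : ℝ)⁻¹ • dv φ) P

/-- the statement in dimension `n + 1`, nef by curves -/
def QvAt (n : ℕ) : Prop := ∀ ε : ℝ, 0 < ε → ∀ R : Finset ℚ, (∀ r ∈ R, 0 ≤ r ∧ r ≤ 1) →
  ∃ N : ℕ, 1 ≤ N ∧ ∀ (K : Type) [Field K] [Algebra ℂ K] (u : Finset K) (Λ Γ Γ' : BD K),
    Dat n u Λ Γ Γ' → Elc n ε R u Λ Γ → NefO n K u (-Γ) → Cpl n N u Λ Γ

/-- the statement in dimension `n + 1`, nef as a limit of semiample -/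
def QsAt (n : ℕ) : Prop := ∀ ε : ℝ, 0 < ε → ∀ R : Finset ℚ, (∀ r ∈ R, 0 ≤ r ∧ r ≤ 1) →
  ∃ N : ℕ, 1 ≤ N ∧ ∀ (K : Type) [Field K] [Algebra ℂ K] (u : Finset K) (Λ Γ Γ' : BD K),
    Dat n u Λ Γ Γ' → Elc n ε R u Λ Γ → (∀ δ : ℝ, 0 < δ → SmpO u (-Γ - δ • Γ')) → Cpl n N u Λ Γ

/-- **Q1 on the tier** -/
def Q1v : Prop := ∀ n, QvAt n

/-- **Q1 on the tier**, nef as a limit of semiample -/
def Q1s : Prop := ∀ n, QsAt n

/-- **KLR**: the relative Kleiman criterion -/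
def KLR : Prop := ∀ (n : ℕ) (K : Type) [Field K] [Algebra ℂ K] (u : Finset K) (Λ α β : BD K),
  FF K (n + 1) → Smp Λ → Dsc Λ (inf u) → Dsc Λ α → Dsc Λ β →
  (∃ ε : ℝ, 0 < ε ∧ SmpO u (α - ε • Λ)) → NefO n K u β → ∀ δ : ℝ, 0 < δ → SmpO u (β + δ • α)

end Vale.Agent.P283M
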