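import Vale.Agent.P283M.Stm
import Vale.Agent.P283M.Qv

/-!
# P283M: the rows of the bridge from the tier statement `Q1v` to the scheme statement `Stm.Q1`
-/

open Set CategoryTheory AlgebraicGeometry

noncomputable section

namespace Vale.Agent.P283M.Br

open Vale.Agent.P289 (Pt St toRat DForm dimension)
open Vale.Agent.P287D Vale.Agent.P283M.Stm Vale.Agent.P283M.Stm.Var

variable {X Z : Var}

/-- `g` is a unit at the point `x` -/
def UnAt (g : X.K) (x : Pt X.X) : Prop := g ≠ 0 ∧ RegAt g x ∧ RegAt g⁻¹ x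

/-- the valuation ring `O` dominates the local ring at `x`: `x` is the centre of `O` -/
def Dom (O : ValuationSubring X.K) (x : Pt X.X) : Prop :=
  ∀ g, RegAt g x → g ∈ O ∧ (g ≠ 0 → g⁻¹ ∈ O → RegAt g⁻¹ x)

/-- the place `P` is the prime divisor `E` of `Y` -/
def Is {Y : Var} (p : X.K ≃+* Y.K) (E : Y.PrimeDiv) (P : Pl X.K) : Prop :=
  ∀ g, g ∈ P.ring ↔ RegAt (p g) E.1

/-- `g` generates the system `t` at `x` -/
def GenAt (t : Finset X.K) (g : X.K) (x : Pt X.X) : Prop :=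
  g ∈ t ∧ g ≠ 0 ∧ ∀ g' ∈ t, RegAt (g' / g) x

/-- the system `t` has no base point on `W` -/
def Bpf (t : Finset X.K) (W : X.X.Opens) : Prop := ∀ x ∈ W, ∃ g, GenAt t g x

/-- on `W` the Cartier divisor `m D` is the difference of the systems `t₁` and `t₂` -/
structure Dif (D : X.PrimeDiv → ℚ) (m : ℕ) (t₁ t₂ : Finset X.K) (W : X.X.Opens) : Prop where
  pos : 0 < m
  b1 : Bpf t₁ W
  b2 : Bpf t₂ W
  eq : ∀ x ∈ W, ∀ g₁ g₂, GenAt t₁ g₁ x → GenAt t₂ g₂ x → LocalEq D m (g₂ / g₁) x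

/-- the local rings of `W` are localisations of the coordinate rings of the charts of `t` -/
def Emb (t : Finset X.K) (W : X.X.Opens) : Prop :=
  ∀ x ∈ W, ∀ g, GenAt t g x → ∀ a, RegAt a x →
    ∃ b ∈ Algebra.adjoin ℂ ((· / g) '' (t : Set X.K)),
      ∃ c ∈ Algebra.adjoin ℂ ((· / g) '' (t : Set X.K)), UnAt c x ∧ a = b / c

/-- `u` are coordinates, centred at `z`, of the affine neighbourhood `V` of `z` -/
structure Base (f : X.X ⟶ Z.X) (V : Z.X.Opens) (z : Pt Z.X) (u : Finset X.K) : Prop where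
  aff : IsAffineOpen V
  mem : z ∈ V
  reg : ∀ a ∈ u, ∀ x ∈ f ⁻¹ᵁ V, RegAt a x
  ctr : ∀ O : ValuationSubring X.K, (∀ c, algebraMap ℂ X.K c ∈ O) → (∀ a ∈ u, a ∈ O) →
    ∃ x ∈ f ⁻¹ᵁ V, Dom O x
  con : ∀ a, (∀ x ∈ f ⁻¹ᵁ V, RegAt a x) → a ∈ Algebra.adjoin ℂ (u : Set X.K)
  bas : ∀ p : MvPolynomial u ℂ, MvPolynomial.constantCoeff p ≠ 0 →
    ∃ U : Z.X.Opens, U ≤ V ∧ z ∈ U ∧ ∀ x ∈ f ⁻¹ᵁ U, UnAt (ev u p) x
  sep : ∀ ξ ∈ f ⁻¹ᵁ V, (∀ a ∈ u, ∃ c : ℂ, ¬ UnAt (a - algebraMap ℂ X.K c) ξ) →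
    ∀ x : Pt X.X, ξ ⤳ x → Pt.map f x = Pt.map f ξ

/-- **HAR**: a rational function without poles along the prime divisors through `x` is regular -/
def HAR : Prop := ∀ (X : Var) (g : X.K) (x : Pt X.X),
  (∀ y : X.PrimeDiv, y.1 ⤳ x → 0 ≤ ord g y) → RegAt g x

/-- **FIN**: a rational function has finitely many zeros and poles -/
def FIN : Prop := ∀ (X : Var) (g : X.K), {y : X.PrimeDiv | ord g y ≠ 0}.Finite

/-- **FFD**: the function field of a variety -/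
def FFD : Prop := ∀ (X : Var) (d : ℕ), dimension X.str = d → FF X.K d

/-- **PLC**: a prime divisor is a divisorial place, with the same order function -/
def PLC : Prop := ∀ (X Y : Var) (p : X.K ≃+* Y.K),
  (∀ c : ℂ, p (algebraMap ℂ X.K c) = algebraMap ℂ Y.K c) → ∀ E : Y.PrimeDiv,
    (∃ P, Is p E P) ∧ ∀ P, Is p E P → ∀ g, ord (p g) E = P.ord g

/-- **MDC**: a model is a model over `ℂ`; the centre of its prime divisors -/
def MDC : Prop := ∀ (X : Var) (M : Model X),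
  (∀ c : ℂ, M.pull (algebraMap ℂ X.K c) = algebraMap ℂ M.Y.K c) ∧
    ∀ E P, Is M.pull E P → Dom P.ring (Pt.map M.π E.1)

/-- **MOD**: a divisorial place with a centre on `X` is a prime divisor of a smooth model -/
def MOD : Prop := ∀ (X : Var) (P : Pl X.K) (x : Pt X.X), Dom P.ring x →
  ∃ (M : Model X) (E : M.Y.PrimeDiv), Pt.map M.π E.1 = x ∧ Is M.pull E P

/-- **FRM**: the order of a form -/
def FRM : Prop := ∀ (X : Var) (d : ℕ), FF X.K d → ∀ ω : DForm ℂ X.K d, ω.Nonzero →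
  ∃ h : X.K, h ≠ 0 ∧ ∀ (Y : Var) (p : X.K ≃+* Y.K) (E : Y.PrimeDiv) (P : Pl X.K), Is p E P →
    (∀ g, ord (p g) E = P.ord g) → (formOrd ω p E : ℝ) = cn X.K d P + P.ord h

/-- **BAS**: coordinates on the base -/
def BAS : Prop := ∀ (X Z : Var) (f : X.X ⟶ Z.X), Contraction f → ∀ z : Pt Z.X,
  IsClosed ({z} : Set (Pt Z.X)) → ∃ V u, Base f V z u

/-- **AMP1**: an ample divisor has a multiple which is very ample over an affine base -/
def AMP1 : Prop := ∀ (X Z : Var) (f : X.X ⟶ Z.X), Contraction f → ∀ A, AmpleOver f A →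
  ∀ V : Z.X.Opens, IsAffineOpen V → ∃ m s, Dif A m s {1} (f ⁻¹ᵁ V) ∧ Emb s (f ⁻¹ᵁ V)

/-- **AMP2**: `m D + k A` is generated by finitely many sections over an affine base -/
def AMP2 : Prop := ∀ (X Z : Var) (f : X.X ⟶ Z.X), Contraction f → ∀ A, AmpleOver f A →
  ∀ V : Z.X.Opens, IsAffineOpen V → ∀ D : X.PrimeDiv → ℚ,
    {y | y.1 ∈ f ⁻¹ᵁ V ∧ D y ≠ 0}.Finite → (∀ x ∈ f ⁻¹ᵁ V, ∃ m g, 0 < m ∧ LocalEq D m g x) →
    ∃ m k t₁ t₂, Dif D m t₁ t₂ (f ⁻¹ᵁ V) ∧ Dif A k t₂ {1} (f ⁻¹ᵁ V)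

/-- **ONC**: the prime divisors of `W` are the prime divisors of `V (mx t)` with a centre in `W` -/
def ONC : Prop := ∀ (X : Var) (n : ℕ), FF X.K (n + 1) → ∀ (t : Finset X.K) (W : X.X.Opens),
  (∃ x, x ∈ W) → Bpf t W → Emb t W → Big (mx t) ∧
    ∀ (P : Pl X.K) (x : Pt X.X), x ∈ W → Dom P.ring x → (On n (mx t) P ↔ x.CodimOne)

/-- **CRV**: nef on the contracted curves implies nef along the chains of places -/
def CRV : Prop := ∀ (X Z : Var) (f : X.X ⟶ Z.X), Contraction f → ∀ (n : ℕ), FF X.K (n + 1) →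
  ∀ V z u, Base f V z u → ∀ D m t₁ t₂, Dif D m t₁ t₂ (f ⁻¹ᵁ V) → NefOver f D →
    ∀ β : BD X.K, (m : ℝ) • β - (mx t₁ - mx t₂) ∈ Prn X.K → NefO n X.K u β

/-- **the bridge** -/
def BRG : Prop := HAR → FIN → FFD → PLC → MDC → MOD → FRM → BAS → AMP1 → AMP2 → ONC → CRV →
  Q1v → Q1

end Vale.Agent.P283M.Br
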